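import Crest.Agent.R17.Iface

/-!
Row 17: the exponent certificate.
-/

set_option autoImplicit false

namespace Crest.Agent.R17

theorem cert_poly {d z : ℝ} (hz : 0 ≤ z) (hd : 2 * z ≤ d) :
    0 ≤ 185 * d + 170 * z - 948 * d ^ 2 - 1508 * d * z - 104 * z ^ 2 + 1224 * d ^ 3 +
      3144 * d ^ 2 * z + 2256 * d * z ^ 2 + 768 * z ^ 3 := by
  have h0 : 0 ≤ 185 - 948 * d + 1224 * d ^ 2 := by nlinarith [sq_nonneg (d - 79 / 204)]
  have h1 : 0 ≤ 260 - 1702 * d + 2796 * d ^ 2 := by nlinarith [sq_nonneg (d - 851 / 2796)]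
  have h2 : 0 ≤ 20 - 104 * z + 4512 * z ^ 2 := by nlinarith [sq_nonneg (z - 52 / 4512)]
  have a0 := mul_nonneg (sub_nonneg.2 hd) h0
  have a1 := mul_nonneg hz h1
  have a2 := mul_nonneg hz h2
  have a3 := mul_nonneg (sub_nonneg.2 hd) (sq_nonneg z)
  have a4 := pow_nonneg hz 3
  nlinarith

theorem cert_cS {κ δ w m : ℝ} (hκ : 3 / 4 ≤ κ) (hδκ : δ ≤ κ) (hw : 0 ≤ w) (hwδ : w ≤ δ / 2)
    (hm0 : 0 ≤ m) :
    cS κ δ w m ≤ 1 - 2 * δ * m - 4 / 9 * w * (1 - 2 * m) + 4 / 13 * (κ - 3 / 4) := by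
  unfold cS
  have hu : w * (1 - 2 * m) ≤ κ / 2 := by nlinarith [mul_nonneg hw hm0]
  have : 4 / 9 * w * (1 - 2 * m) - 4 / 13 * (κ - 3 / 4) ≤ w * (1 - 2 * m) / (3 * κ) := by
    rw [le_div_iff₀ (by linarith)]
    nlinarith [mul_nonneg (sub_nonneg.2 hκ) (sub_nonneg.2 hu),
      mul_nonneg (sub_nonneg.2 hκ) (show 0 ≤ κ by linarith)]
  linarith

theorem cert_cM {δ w r : ℝ} (hr : 1 ≤ r) : cM δ w r = 1 / 6 + (5 / 6 - δ) * r := by
  unfold cM
  split_ifs with h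
  · obtain rfl : r = 1 := le_antisymm h hr
    ring
  · ring

theorem stCert : StCert := by
  intro κ δ w hκ hκ1 hδ hδκ hw hwδ
  by_cases h7 : 7 / 10 ≤ δ
  · refine ⟨3 / 2, by norm_num, le_rfl, fun r m hr hrm hm => ?_⟩
    have h1 : 1 ≤ r := by linarith
    have h2 := min_le_left (cM δ w r) (cS κ δ w (max m 0))
    rw [cert_cM h1] at h2 ⊢
    nlinarith [mul_nonneg (sub_nonneg.2 h1) (sub_nonneg.2 h7)]
  push Not at h7
  have he : 0 < 5 / 6 - δ := by linarith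
  obtain ⟨ρ, hρ⟩ : ∃ ρ, ρ = 16 / 13 * (5 / 6 - 2 * δ / 3 - w / 6) := ⟨_, rfl⟩
  obtain ⟨t, ht⟩ : ∃ t, (5 / 6 - δ) * t = ρ - 1 / 6 :=
    ⟨(ρ - 1 / 6) / (5 / 6 - δ), mul_div_cancel₀ _ he.ne'⟩
  have ht1 : 1 ≤ t := by
    refine le_of_mul_le_mul_left ?_ he
    rw [ht, hρ]
    linarith
  have big : ∀ r m : ℝ, 1 ≤ r → r ≤ t →
      13 / 16 * min (cM δ w r) (cS κ δ w (max m 0)) + 2 * δ / 3 + w / 6 ≤
        5 / 6 + (κ - 3 / 4) / 4 := fun r m h1 hr => by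
    have h2 := min_le_left (cM δ w r) (cS κ δ w (max m 0))
    have h3 := mul_le_mul_of_nonneg_left hr he.le
    rw [cert_cM h1] at h2 ⊢
    linarith
  by_cases h3 : 3 / 2 ≤ t
  · exact ⟨3 / 2, by norm_num, le_rfl, fun r m hr hrm hm => big r m (by linarith) (by linarith)⟩
  push Not at h3
  refine ⟨t, ht1, h3.le, fun r m hr hrm hm => ?_⟩
  by_cases h1 : 1 ≤ r
  · exact big r m h1 hr
  push Not at h1
  have hm0 : 0 ≤ m := by linarith
  rw [max_eq_left hm0]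
  have c1 : cM δ w r = 1 - δ * r - w * (1 - r) := by
    unfold cM
    rw [if_pos h1.le]
  have c2 := cert_cS hκ hδκ hw hwδ hm0
  have m1 := min_le_left (cM δ w r) (cS κ δ w m)
  have m2 := min_le_right (cM δ w r) (cS κ δ w m)
  by_contra hc
  push Not at hc
  have b1 : 0 < 1 - δ * r - w * (1 - r) - ρ := by linarith
  have b2 : 0 < 1 - 2 * δ * m - 4 / 9 * w * (1 - 2 * m) - ρ := by linarith
  have hA : 0 < δ - w := by linarith
  have hB : 0 < 2 * (δ - 4 / 9 * w) := by linarith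
  have s1 : 0 < (δ - w + 2 * (δ - 4 / 9 * w)) * (1 - ρ) - 2 * (δ - 4 / 9 * w) * w -
      (δ - w) * (4 / 9 * w) - (δ - w) * (2 * (δ - 4 / 9 * w)) * t := by
    have q1 := mul_pos hB b1
    have q2 := mul_pos hA b2
    have q3 := mul_nonneg (mul_pos hA hB).le (sub_nonneg.2 hrm)
    nlinarith
  have s2 := mul_pos he s1
  have s3 : (5 / 6 - δ) * ((δ - w) * (2 * (δ - 4 / 9 * w)) * t) =
      (δ - w) * (2 * (δ - 4 / 9 * w)) * (ρ - 1 / 6) := by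
    rw [← ht]; ring
  have s4 := cert_poly (d := δ) (z := δ / 2 - w) (by linarith) (by linarith)
  rw [mul_sub, s3, hρ] at s2
  nlinarith

end Crest.Agent.R17
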