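import Mathlib
import Crest.Prelude.Def_HeckeK3

/-!
Row 17 (S0022, S0023): shared definitions.  FROZEN (owner: lead).  Blueprint: notes17/R17.md.
`O` = Eisenstein integers, `sg` the complex embedding with `sg om = exp(2πi/3)`, `nm` the norm,
`Pr` the submonoid of primary elements (`≡ 1 mod 3`), `sx u n = (u/n)_6`, `cb u n = (u/n)_3`.
-/

set_option autoImplicit false

namespace Crest.Agent.R17

open Crest.NumberTheoryR.EisensteinField
open scoped ComplexConjugate

/-- the Eisenstein integers -/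
abbrev O : Type := O3

instance instCyc : IsCyclotomicExtension {3} ℚ K3 :=
  CyclotomicField.isCyclotomicExtension 3 ℚ

instance instPID : IsPrincipalIdealRing O := IsCyclotomicExtension.Rat.three_pid K3

/-- the cube root of unity `ω` -/
noncomputable def om : O := (IsCyclotomicExtension.zeta_spec 3 ℚ K3).toInteger

/-- `λ = 1 + 2ω = √-3` -/
noncomputable def lam : O := 1 + 2 * om

/-- the primitive sixth root of unity `1 + ω = -ω²` -/
noncomputable def zt : O := 1 + om

/-- the complex embedding of the field sending `ζ₃` to `exp(2πi/3)` -/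
noncomputable def sgK : K3 →ₐ[ℚ] ℂ :=
  ((IsCyclotomicExtension.zeta_spec 3 ℚ K3).embeddingsEquivPrimitiveRoots ℂ
      (Polynomial.cyclotomic.irreducible_rat (by norm_num))).symm
    ⟨Complex.exp (2 * Real.pi * Complex.I / (3 : ℕ)),
      (mem_primitiveRoots (by norm_num)).2 (Complex.isPrimitiveRoot_exp 3 (by norm_num))⟩

/-- the complex embedding of `O` -/
noncomputable def sg : O →+* ℂ := sgK.toRingHom.comp (algebraMap O K3)

/-- the norm as a natural number -/
noncomputable def nN (n : O) : ℕ := Ideal.absNorm (Ideal.span {n})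

/-- the norm as a real number (`= ‖sg n‖ ^ 2`) -/
noncomputable def nm (n : O) : ℝ := (nN n : ℝ)

/-- primary: `≡ 1 mod 3` -/
def Prim (n : O) : Prop := (3 : O) ∣ n - 1

/-- the primary elements -/
def Pr : Submonoid O where
  carrier := {n | Prim n}
  one_mem' := by simp [Prim]
  mul_mem' := by
    intro a b ha hb
    have : a * b - 1 = (a - 1) * b + (b - 1) := by ring
    show (3 : O) ∣ a * b - 1
    rw [this]
    exact dvd_add (Dvd.dvd.mul_right ha b) hb

/-- the additive character of `ℂ` trivial exactly on the (self-dual) lattice `sg O`: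
`eC (x + y ω) = exp(2πi y)` for real `x, y`. -/
noncomputable def eC (z : ℂ) : ℂ :=
  Complex.exp (2 * Real.pi * Complex.I * ((2 * z.im / Real.sqrt 3 : ℝ) : ℂ))

/-- `e(y / c)` -/
noncomputable def eQ (y c : O) : ℂ := eC (sg y / sg c)

open Classical in
/-- sextic residue symbol modulo a prime `p` (it is `0` for `p ∣ 6` and for `p ∣ u`) -/
noncomputable def sxp (u p : O) : ℂ :=
  ∑ j ∈ Finset.range 6, if p ∣ u ^ ((nN p - 1) / 6) - zt ^ j then sg (zt ^ j) else 0

open Classical in
/-- cubic residue symbol modulo a prime `p` (it is `0` for `p ∣ 3` and for `p ∣ u`) -/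
noncomputable def cbp (u p : O) : ℂ :=
  ∑ j ∈ Finset.range 3, if p ∣ u ^ ((nN p - 1) / 3) - om ^ j then sg (om ^ j) else 0

open Classical in
/-- `sx u n = (u / n)_6 = χ_n(u)`; depends only on the ideal `(n)` -/
noncomputable def sx (u n : O) : ℂ :=
  if n = 0 then 0 else ((UniqueFactorizationMonoid.factors n).map (sxp u)).prod

open Classical in
/-- `cb u n = (u / n)_3`; depends only on the ideal `(n)` -/
noncomputable def cb (u n : O) : ℂ :=
  if n = 0 then 0 else ((UniqueFactorizationMonoid.factors n).map (cbp u)).prod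

open Classical in
/-- the Möbius function of `O` -/
noncomputable def mu (n : O) : ℂ :=
  if Squarefree n then (-1) ^ Multiset.card (UniqueFactorizationMonoid.factors n) else 0

/-- complete sum over residues modulo `Q` -/
noncomputable def rsum (Q : O) (f : O → ℂ) : ℂ :=
  ∑ᶠ y : O ⧸ Ideal.span {Q}, f (Quotient.out y)

/-- finite Fourier transform modulo `Q` -/
noncomputable def FT (Q : O) (Ψ : O → ℂ) (h : O) : ℂ := rsum Q fun y => Ψ y * eQ (h * y) Q

/-- Gauss sum `g_j(m; c) = ∑_{y mod c} χ_c(y)^j e(m y / c)` (use `j = 5` for `conj χ_c`) -/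
noncomputable def gs (j : ℕ) (m c : O) : ℂ := FT c (fun y => sx y c ^ j) m

/-- normalised cubic Gauss sum -/
noncomputable def g3 (c : O) : ℂ := FT c (fun y => cb y c) 1 / (Real.sqrt (nm c) : ℂ)

/-- normalised quadratic Gauss sum; for odd `c` it has modulus one and depends on `c mod 4` -/
noncomputable def gam (c : O) : ℂ := rsum c (fun y => eQ (y ^ 2) c) / (Real.sqrt (nm c) : ℂ)

/-- the quadratic reciprocity sign (`±1`, bimultiplicative, depends on `a, b mod 4`; odd `a, b`) -/
noncomputable def eps (a b : O) : ℂ := gam (a * b) * conj (gam a) * conj (gam b)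

/-- the angle `n / |n|` -/
noncomputable def al (n : O) : ℂ := sg n / (‖sg n‖ : ℂ)

open Classical in
/-- the theta coefficient on primary elements: `tau0 (c b³) = conj (g3 c) · |b|` for primary
squarefree `c` and primary `b`, and `0` on everything else -/
noncomputable def tau0 (n : O) : ℂ :=
  if h : ∃ p : O × O, Prim p.1 ∧ Prim p.2 ∧ Squarefree p.1 ∧ n = p.1 * p.2 ^ 3 then
    conj (g3 h.choose.1) * (Real.sqrt (nm h.choose.2) : ℂ)
  else 0

/-- log-normal test function of width `a`, centre `Y`, twist `t` -/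
noncomputable def LN (a Y t x : ℝ) : ℂ :=
  Complex.exp (-((Real.log (x / Y) ^ 2 / (2 * a ^ 2) : ℝ) : ℂ) +
    Complex.I * ((t * Real.log (x / Y) : ℝ) : ℂ))

/-- Mellin transform of `LN a 1 0`: `∫ LN a 1 0 x · x^(s-1) dx` -/
noncomputable def LNt (a : ℝ) (s : ℂ) : ℂ :=
  (Real.sqrt (2 * Real.pi) * a : ℝ) * Complex.exp ((a : ℂ) ^ 2 * s ^ 2 / 2)

/-- the self-dual Gaussian row weight of size `K` -/
noncomputable def gw (K : ℝ) (k : O) : ℝ := Real.exp (-(2 * Real.pi * nm k / (Real.sqrt 3 * K)))

/-- an admissible level: non-zero and divisible by `72` -/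
def Lev (q : O) : Prop := q ≠ 0 ∧ (72 : O) ∣ q

/-- a multiplicative character modulo `q`, as a function on `O` -/
structure IsTw (q : O) (ψ : O → ℂ) : Prop where
  one : ψ 1 = 1
  mul : ∀ a b, ψ (a * b) = ψ a * ψ b
  per : ∀ a b, q ∣ a - b → ψ a = ψ b
  zero : ∀ a, ¬ IsCoprime a q → ψ a = 0

open Classical in
/-- the principal character modulo `q` -/
noncomputable def one (q : O) (n : O) : ℂ := if IsCoprime n q then 1 else 0

/-- the character `n ↦ ψ(n) χ_n(u)` of row `u` -/
noncomputable def rc (ψ : O → ℂ) (u : O) : O → ℂ := fun n => ψ n * sx u n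

/-- exceptional rows: a `q`-smooth element times a sixth power -/
def Exc (q u : O) : Prop := ∃ (s v : O) (k : ℕ), s ∣ q ^ k ∧ u = s * v ^ 6

/-- principal on the primary elements -/
def Princ (ψ : O → ℂ) : Prop := ∀ n : Pr, ψ n = 0 ∨ ψ n = 1

/-- the Dirichlet series over primary elements -/
noncomputable def DS (ψ : O → ℂ) (s : ℂ) : ℂ := ∑' n : Pr, ψ n * ((nm n : ℂ) ^ (-s))

open Classical in
/-- the factor removing the pole -/
noncomputable def pf (ψ : O → ℂ) (s : ℂ) : ℂ := if Princ ψ then s - 1 else 1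

/-- `G` is the entire continuation of `pf · DS` -/
def IsL (ψ : O → ℂ) (G : ℂ → ℂ) : Prop :=
  Differentiable ℂ G ∧ ∀ s : ℂ, 1 < s.re → G s = pf ψ s * DS ψ s

open Classical in
/-- the entire function `L(s, ψ)`, times `s - 1` when `ψ` is principal -/
noncomputable def Lx (ψ : O → ℂ) : ℂ → ℂ := if h : ∃ G, IsL ψ G then h.choose else 0

/-- every `L(s, ψ)` is zero-free on `Re s > β` -/
def ZF (β : ℝ) : Prop :=
  ∀ (q : O) (ψ : O → ℂ), Lev q → IsTw q ψ → ∀ s : ℂ, β < s.re → Lx ψ s ≠ 0

/-- plain smooth sum -/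
noncomputable def PS (ψ : O → ℂ) (a Y t : ℝ) : ℂ := ∑' n : Pr, ψ n * LN a Y t (nm n)

/-- Möbius smooth sum -/
noncomputable def MS (ψ : O → ℂ) (a Y t : ℝ) : ℂ := ∑' n : Pr, mu n * ψ n * LN a Y t (nm n)

open Classical in
/-- prime smooth sum -/
noncomputable def PP (ψ : O → ℂ) (a Y t : ℝ) : ℂ :=
  ∑' n : Pr, if Prime (n : O) then ψ n * LN a Y t (nm n) else 0

/-- the Gram side `C(k)` of the probe -/
noncomputable def CC (ψ : O → ℂ) (a R : ℝ) (k : O) : ℂ :=
  ∑' s : Pr, ψ s * LN a R 0 (nm s) / (Real.sqrt (nm s) : ℂ) * gs 5 (-k) s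

open Classical in
/-- the marked theta sum `T(k)` -/
noncomputable def TT (ψ : O → ℂ) (a N t : ℝ) (Rs : Finset O) (c : O → ℂ) (k : O) : ℂ :=
  ∑ r ∈ Rs, c r * ∑' n : Pr, if r ∣ (n : O) then
    tau0 n * al n * ψ n * conj (sx k n) * LN a (N * nm r) t (nm n) else 0

end Crest.Agent.R17
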