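import Crest.Agent.R17.Defs

/-!
Row 17: block interfaces (owner: lead).  Each `St…` is proved by one block; see notes17/R17.md.
A block owner who finds an interface false or awkward tells lead and the consumer at once.
-/

set_option autoImplicit false

namespace Crest.Agent.R17

open scoped ComplexConjugate

/-- Gamma factor of the (weight one) theta Dirichlet series -/
noncomputable def gth (s : ℂ) : ℂ :=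
  ((27 / (4 * Real.pi ^ 2) : ℝ) : ℂ) ^ s * Complex.Gamma (s + 1 / 3) * Complex.Gamma (s + 2 / 3)

/-- entire and bounded on every vertical strip -/
def EntBdd (F : ℂ → ℂ) : Prop :=
  Differentiable ℂ F ∧ ∀ σ₁ σ₂ : ℝ, ∃ B : ℝ, ∀ s : ℂ, σ₁ ≤ s.re → s.re ≤ σ₂ → ‖F s‖ ≤ B

/-- Block D: the cubic theta function (coefficients indexed by `n = λ³ ν`) and its reflection at
the cusps `a / c`, `3 ∣ c`. -/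
def StD : Prop :=
  ∃ (τ : O → ℂ) (t : O → ℕ → ℂ) (e₀ : ℂ), ‖e₀‖ = 1 ∧
    (∀ (ζ : O) (i : ℕ) (n : O), IsUnit ζ → Prim n →
      τ (ζ * lam ^ i * n) = t ζ i * cb (ζ * lam ^ (i + 1)) n * tau0 n) ∧
    (∃ C : ℝ, ∀ (ζ : O) (i : ℕ), IsUnit ζ → ‖t ζ i‖ ≤ C * (3 : ℝ) ^ ((i : ℝ) / 3)) ∧
    t 1 0 ≠ 0 ∧ (∃ (ζ : O) (i : ℕ), IsUnit ζ ∧ ¬ 3 ∣ i ∧ t ζ i ≠ 0) ∧
    ∀ a d c : O, c ≠ 0 → (3 : O) ∣ c → Prim a → 3 * c ∣ a * d - 1 →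
      ∃ Λ Λ' : ℂ → ℂ, EntBdd Λ ∧ EntBdd Λ' ∧
        (∀ s : ℂ, 2 < s.re →
          Λ s = gth s * ∑' n : O, τ n * al n * eQ (-(n * a)) (3 * c) * (nm n : ℂ) ^ (-s)) ∧
        (∀ s : ℂ, 2 < s.re →
          Λ' s = gth s * ∑' n : O, τ n * conj (al n) * eQ (n * d) (3 * c) * (nm n : ℂ) ^ (-s)) ∧
        ∀ s : ℂ, Λ s = e₀ * cb c a * al c ^ 2 * (nm c : ℂ) ^ (1 - 2 * s) * Λ' (1 - s)

/-- odd primary squarefree of norm at most `X` -/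
def Sq (X : ℝ) (n : O) : Prop := Prim n ∧ Squarefree n ∧ IsCoprime n 2 ∧ nm n ≤ X

/-- Block E: Heath-Brown's quadratic large sieve over `O`. -/
def StE : Prop :=
  ∀ ε : ℝ, 0 < ε → ∃ C : ℝ, ∀ (K L : ℝ) (A B : Finset O) (a : O → ℂ), 1 ≤ K → 1 ≤ L →
    (∀ k ∈ A, Sq K k) → (∀ l ∈ B, Sq L l) →
    ∑ k ∈ A, ‖∑ l ∈ B, a l * sx l k ^ 3‖ ^ 2 ≤ C * (K * L) ^ ε * (K + L) * ∑ l ∈ B, ‖a l‖ ^ 2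

/-- Block F: energy of the marked theta sums over all non-zero rows of norm at most `K`
(`X = N P`). -/
def StF : Prop :=
  ∀ (q : O) (a ε : ℝ), Lev q → 0 < a → 0 < ε → ∃ C : ℝ, ∀ (ψ : O → ℂ) (Z K N P t : ℝ)
    (Rs A : Finset O) (c : O → ℂ), IsTw q ψ → 1 ≤ K → K ≤ Z → 1 ≤ P → P ≤ Z → Z⁻¹ ≤ N → N ≤ Z →
    (∀ r ∈ Rs, Prim r ∧ Squarefree r ∧ IsCoprime r q ∧ nm r ≤ P) → (∀ r, ‖c r‖ ≤ 1) →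
    (∀ k ∈ A, k ≠ 0 ∧ nm k ≤ K) →
    ∑ k ∈ A, ‖TT ψ a N t Rs c k‖ ^ 2 ≤ C * Z ^ ε * (1 + |t|) ^ C *
      (N * P * K + K ^ 2 * P ^ 2 + (N * P) ^ (1 / 2 : ℝ) * K * P ^ (5 / 2 : ℝ) +
        (N * P) ^ (4 / 3 : ℝ) * K ^ (1 / 3 : ℝ) * P)

/-- Block G: the Gram bound. -/
def StGram : Prop :=
  ∀ (q : O) (a ε : ℝ), Lev q → 0 < a → 0 < ε → ∃ C : ℝ, ∀ (ψ : O → ℂ) (Z K R : ℝ),
    IsTw q ψ → 1 ≤ K → K ≤ Z → 1 ≤ R → R ≤ Z →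
    Summable (fun k : O => gw K k * ‖CC ψ a R k‖ ^ 2) ∧
    ∑' k : O, gw K k * ‖CC ψ a R k‖ ^ 2 ≤ C * Z ^ ε *
      (K * R + K ^ (5 / 6 : ℝ) * R ^ (4 / 3 : ℝ) + R ^ 3 * K ^ (-1 / 2 : ℝ))

/-- Block M1: marked Möbius moment. -/
def StM1 : Prop :=
  ∃ C₀ : ℝ, ∀ (q : O) (a ε : ℝ) (j : ℕ), Lev q → 0 < a → 0 < ε → ∃ C : ℝ,
    ∀ (ψ : O → ℂ) (Z U N P t : ℝ) (Ps A : Finset O) (ω : Fin j → O → ℂ), IsTw q ψ →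
    1 ≤ N → 1 ≤ P → N * P ^ (2 * j) ≤ U → P ^ (4 * j) ≤ U → U ≤ Z →
    (∀ p ∈ Ps, Prime p ∧ Prim p ∧ IsCoprime p q ∧ nm p ≤ P) → (∀ i p, ‖ω i p‖ ≤ 1) →
    (∀ k ∈ A, nm k ≤ U) →
    ∑ k ∈ A, ‖MS (rc ψ k) a N t * ∏ i, ∑ p ∈ Ps, ω i p * sx k p‖ ^ 2 ≤
      C * Z ^ ε * P ^ C₀ * (1 + |t|) ^ C * (U * N * P ^ j)

/-- Block M1 (long Möbius sums, by sixth-power amplification). -/
def StM1L : Prop :=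
  ∀ (q : O) (a ε : ℝ), Lev q → 0 < a → 0 < ε → ∃ C : ℝ,
    ∀ (ψ : O → ℂ) (Z U N t : ℝ) (A : Finset O), IsTw q ψ → 1 ≤ U → U ≤ N → N ≤ Z →
    (∀ k ∈ A, k ≠ 0 ∧ nm k ≤ U) →
    ∑ k ∈ A, ‖MS (rc ψ k) a N t‖ ^ 2 ≤
      C * Z ^ ε * (1 + |t|) ^ C * (N ^ (11 / 6 : ℝ) * U ^ (1 / 6 : ℝ))

/-- Block M2: two plain sums times prime sums, under a zero-free half plane. -/
def StM2 : Prop :=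
  ∃ C₀ : ℝ, ∀ β : ℝ, 7 / 8 ≤ β → β ≤ 1 → ZF β →
    ∀ (q : O) (a σ e ε : ℝ) (j : ℕ), Lev q → 0 < a → 0 < σ → 0 < e → 0 < ε → ∃ C : ℝ,
    ∀ (ψ₁ ψ₂ : O → ℂ) (ψ : Fin j → O → ℂ) (Z U N₁ N₂ P t₁ t₂ : ℝ) (s : Fin j → ℝ) (A : Finset O),
    IsTw q ψ₁ → IsTw q ψ₂ → (∀ i, IsTw q (ψ i)) → 1 ≤ Z → Z ^ σ ≤ P → 1 ≤ N₁ → 1 ≤ N₂ →
    N₁ * N₂ * P ^ (6 * (2 * β - 1 + e) * j) ≤ U → U ≤ Z →
    (∀ k ∈ A, k ≠ 0 ∧ ¬ Exc q k ∧ nm k ≤ U) →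
    ∑ k ∈ A, ‖PS (rc ψ₁ k) a N₁ t₁ * PS (rc ψ₂ k) a N₂ t₂ * ∏ i, PP (rc (ψ i) k) a P (s i)‖ ^ 2 ≤
      C * Z ^ ε * P ^ C₀ * (1 + |t₁| + |t₂| + ∑ i, |s i|) ^ C * (U * N₁ * N₂ * P ^ j)

/-- count exponent from the Möbius moments -/
noncomputable def cM (δ w r : ℝ) : ℝ := if r ≤ 1 then 1 - δ * r - w * (1 - r) else (1 + 5 * r) / 6 - δ * r

/-- count exponent from the plain moment -/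
noncomputable def cS (κ δ w m : ℝ) : ℝ := 1 - 2 * δ * m - w * (1 - 2 * m) / (3 * κ)

/-- The exponent certificate (numerical margin `2.2e-4` at `κ = 3/4`, `δ ≈ 0.387`, `w = δ/2`). -/
def StCert : Prop :=
  ∀ κ δ w : ℝ, 3 / 4 ≤ κ → κ ≤ 1 → 1 / 50 ≤ δ → δ ≤ κ → 0 ≤ w → w ≤ δ / 2 →
    ∃ t : ℝ, 1 ≤ t ∧ t ≤ 3 / 2 ∧ ∀ r m : ℝ, r ≤ t → t ≤ r + m → m ≤ 1 / 2 →
      13 / 16 * min (cM δ w r) (cS κ δ w (max m 0)) + 2 * δ / 3 + w / 6 ≤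
        5 / 6 + (κ - 3 / 4) / 4

/-- Block K: the number of rows with a zero near `Re s = b`, none beyond `b`, and slot amplitude
at least `P^(1/2+w)`. -/
def StCount : Prop :=
  ∃ C₀ : ℝ, ∀ β : ℝ, 7 / 8 ≤ β → β ≤ 1 → ZF β →
    ∀ (q : O) (a σ e ε : ℝ), Lev q → 0 < a → 0 < σ → 0 < e → e ≤ 1 / 1000 → 0 < ε → ∃ C : ℝ,
    ∀ (Z U P T₁ b w τ : ℝ) (A : Finset O), C ≤ Z → Z ^ σ ≤ P → P ≤ Z → Z ^ σ ≤ U → U ≤ Z →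
    0 ≤ T₁ → T₁ ≤ 2 / e * Real.log Z ^ 2 → 51 / 100 ≤ b → b ≤ β → |τ| ≤ Real.log Z ^ 2 / 4 →
    0 ≤ w →
    (∀ u ∈ A, u ≠ 0 ∧ ¬ Exc q u ∧ nm u ≤ U ∧
      (∃ (ψ : O → ℂ) (ρ : ℂ), IsTw q ψ ∧ b - e ≤ ρ.re ∧ |ρ.im| ≤ T₁ ∧ Lx (rc ψ u) ρ = 0) ∧
      (∀ (ψ : O → ℂ) (ρ : ℂ), IsTw q ψ → b < ρ.re → |ρ.im| ≤ T₁ + Real.log Z ^ 2 →
        Lx (rc ψ u) ρ ≠ 0) ∧
      (w = 0 ∨ P ^ (1 / 2 + w) ≤ ‖PP (rc (one q) u) a P τ‖)) →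
    (A.card : ℝ) ≤ C * Z ^ ε * P ^ C₀ *
      U ^ (16 / 13 * (5 / 6 + (β - 7 / 8) / 2 - 2 * (2 * b - 1) / 3 - w / 6) + C₀ * e)

/-- Blocks I, J: the improvement step. -/
def StStep : Prop := ∀ β : ℝ, 7 / 8 < β → β ≤ 1 → ZF β → ∃ β' : ℝ, β' < β ∧ ZF β'

end Crest.Agent.R17
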