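import Crest.Agent.R17.C.Final
import Crest.Agent.R17.Cert
import Crest.Agent.R17.D.Main
import Crest.Agent.R17.E.Main
import Crest.Agent.R17.F.Main
import Crest.Agent.R17.I.Main
import Crest.Agent.R17.J.Step
import Crest.Agent.R17.K.Main
import Crest.Agent.R17.M1.Final
import Crest.Agent.R17.M2.Final
import Crest.Agent.R17.P.Gram
import Crest.Agent.R17.P.M1L

/-! Row 17: the assembly of all blocks. -/

set_option autoImplicit false

namespace Crest.Agent.R17

theorem zf_final : ZF (7 / 8) := by
  have hF : StF := F.stF_aux stD stE
  have h1 : StM1 := stM1 hF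
  exact C.zf78 (stStep stHigh stGram hF (stCount h1 (stM1L h1) stM2 stCert))

end Crest.Agent.R17
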